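import Vale.Agent.P116.H906.Nodes
import Vale.Agent.P153.R2.TOP.Sep

/-!
# P116, full Koebe, block [45]: level sets of strongly monotone functions

`UpS K u t` : the points off `K` with `u > t` and the ends of `K` whose lower value is `> t`.
`Lv K u s` : the (closed, saturated) level set.
`no_island` : no relatively clopen compact part of `Lv K u s ∩ w` is inside the interior of `w`, if
`u` is strongly monotone in `w`.
`comp_meets` : every component of `Lv K u s ∩ D`, `D ⊆ w`, meets the frontier of `D`.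
-/

open Set Filter Topology Metric Bornology

namespace Vale.Agent.P116.Cl.H766

open H906

/-- lower value `> t` -/
def UpS (K : Set ℂ) (u : ℂ → ℝ) (t : ℝ) : Set ℂ :=
  {z | z ∉ K ∧ t < u z} ∪
    {z | z ∈ K ∧ ∃ n, ∃ t', t < t' ∧ ∀ y ∈ nd K n z, y ∉ K → t' ≤ u y}

/-- the level set -/
def Lv (K : Set ℂ) (u : ℂ → ℝ) (s : ℝ) : Set ℂ :=
  (UpS K u s ∪ UpS K (fun z => - u z) (-s))ᶜ

/-- strongly monotone in `w` -/
def SMon (K w : Set ℂ) (u : ℂ → ℝ) : Prop :=
  ∀ t, IsPreconnected (UpS K u t ∪ wᶜ) ∧ IsPreconnected (UpS K (fun z => - u z) t ∪ wᶜ)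

variable {K : Set ℂ} {u : ℂ → ℝ} {s t : ℝ}

lemma mem_UpS_of_notMem {z : ℂ} (hz : z ∉ K) : z ∈ UpS K u t ↔ t < u z := by
  constructor
  · rintro (h | h)
    · exact h.2
    · exact absurd h.1 hz
  · exact fun h => Or.inl ⟨hz, h⟩

lemma mem_UpS_of_mem {z : ℂ} (hz : z ∈ K) :
    z ∈ UpS K u t ↔ ∃ n, ∃ t', t < t' ∧ ∀ y ∈ nd K n z, y ∉ K → t' ≤ u y := by
  constructor
  · rintro (h | h)
    · exact absurd hz h.1
    · exact h.2
  · exact fun h => Or.inr ⟨hz, h⟩

lemma UpS_anti {t' : ℝ} (h : t ≤ t') : UpS K u t' ⊆ UpS K u t := by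
  rintro z (⟨hz, h1⟩ | ⟨hz, n, r, h1, h2⟩)
  · exact Or.inl ⟨hz, h.trans_lt h1⟩
  · exact Or.inr ⟨hz, n, r, h.trans_lt h1, h2⟩

lemma isOpen_UpS (hK : IsClosed K) (hu : ContinuousOn u Kᶜ) : IsOpen (UpS K u t) := by
  rw [isOpen_iff_mem_nhds]
  rintro z (⟨hz, h1⟩ | ⟨hz, n, r, h1, h2⟩)
  · have h3 : ContinuousAt u z := hu.continuousAt (hK.isOpen_compl.mem_nhds hz)
    filter_upwards [h3.eventually (lt_mem_nhds h1), hK.isOpen_compl.mem_nhds hz] with y hy hyK
    exact Or.inl ⟨hyK, hy⟩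
  · filter_upwards [closedBall_mem_nhds z (lr_pos n)] with y hy
    have hy' : y ∈ nd K n z := closedBall_subset_nd hz (mem_nd hz n) hy
    by_cases hyK : y ∈ K
    · refine Or.inr ⟨hyK, n, r, h1, ?_⟩
      rw [nd_eq hy']
      exact h2
    · exact Or.inl ⟨hyK, h1.trans_le (h2 y hy' hyK)⟩

lemma UpS_eq_iUnion {z : ℂ} (h : z ∈ UpS K u s) : ∃ t, s < t ∧ z ∈ UpS K u t := by
  rcases h with ⟨hz, h1⟩ | ⟨hz, n, r, h1, h2⟩
  · obtain ⟨t, h3, h4⟩ := exists_between h1
    exact ⟨t, h3, Or.inl ⟨hz, h4⟩⟩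
  · obtain ⟨t, h3, h4⟩ := exists_between h1
    exact ⟨t, h3, Or.inr ⟨hz, n, r, h4, h2⟩⟩

/-- a compact subset of `UpS K u s` is inside `UpS K u t` for some `t > s` -/
lemma exists_UpS (hK : IsClosed K) (hu : ContinuousOn u Kᶜ) {Γ : Set ℂ} (hΓ : IsCompact Γ)
    (h : Γ ⊆ UpS K u s) : ∃ t, s < t ∧ Γ ⊆ UpS K u t := by
  refine hΓ.induction_on (p := fun A => ∃ t, s < t ∧ A ⊆ UpS K u t) ⟨s + 1, by linarith,
    empty_subset _⟩ ?_ ?_ ?_
  · rintro A B hAB ⟨t, h1, h2⟩
    exact ⟨t, h1, hAB.trans h2⟩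
  · rintro A B ⟨t, h1, h2⟩ ⟨t', h3, h4⟩
    exact ⟨min t t', lt_min h1 h3, union_subset (h2.trans (UpS_anti (min_le_left _ _)))
      (h4.trans (UpS_anti (min_le_right _ _)))⟩
  · intro z hz
    obtain ⟨t, h1, h2⟩ := UpS_eq_iUnion (h hz)
    exact ⟨UpS K u t, mem_nhdsWithin_of_mem_nhds ((isOpen_UpS hK hu).mem_nhds h2), t, h1,
      Subset.rfl⟩

lemma frontier_nonempty {A : Set ℂ} (h1 : A.Nonempty) (h2 : IsCompact A) :
    (frontier A).Nonempty := by
  rw [nonempty_iff_ne_empty]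
  intro h
  rcases frontier_eq_empty_iff.1 h with h3 | h3
  · exact h1.ne_empty h3
  · rw [h3] at h2
    exact (NormedSpace.unbounded_univ ℝ ℂ) h2.isBounded

/-- nodes contain points off `K` -/
lemma nd_diff_nonempty (hK : IsCompact K) {z : ℂ} (hz : z ∈ K) (n : ℕ) :
    ∃ y ∈ nd K n z, y ∉ K := by
  obtain ⟨y, hy⟩ := frontier_nonempty ⟨z, mem_nd hz n⟩ (isCompact_nd hK n z)
  refine ⟨y, (isCompact_nd hK n z).isClosed.frontier_subset hy, ?_⟩
  exact disjoint_left.1 (frontier_nd_disjoint n z) hy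

lemma UpS_disjoint (hK : IsCompact K) {s : ℝ} :
    Disjoint (UpS K u s) (UpS K (fun z => - u z) (-s)) := by
  rw [disjoint_left]
  intro z h1 h2
  by_cases hz : z ∈ K
  · rw [mem_UpS_of_mem hz] at h1 h2
    obtain ⟨n, r, h3, h4⟩ := h1
    obtain ⟨m, r', h5, h6⟩ := h2
    obtain ⟨y, hy, hyK⟩ := nd_diff_nonempty hK hz (max n m)
    have h7 := h4 y (nd_anti (le_max_left _ _) hy) hyK
    have h8 := h6 y (nd_anti (le_max_right _ _) hy) hyK
    linarith
  · rw [mem_UpS_of_notMem hz] at h1 h2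
    linarith

lemma isClosed_Lv (hK : IsClosed K) (hu : ContinuousOn u Kᶜ) : IsClosed (Lv K u s) :=
  ((isOpen_UpS hK hu).union (isOpen_UpS hK (u := fun z => - u z) hu.neg)).isClosed_compl

lemma mem_Lv_of_notMem {z : ℂ} (hz : z ∉ K) : z ∈ Lv K u s ↔ u z = s := by
  rw [Lv, mem_compl_iff, mem_union, mem_UpS_of_notMem hz, mem_UpS_of_notMem hz]
  constructor
  · intro h
    push Not at h
    linarith [h.1, h.2]
  · rintro h (h1 | h1) <;> linarith

lemma Lv_neg : Lv K (fun z => - u z) (-s) = Lv K u s := by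
  unfold Lv
  rw [union_comm]
  congr 3
  · funext z
    simp
  · simp

/-- ends in the level set -/
lemma mem_Lv_of_mem {z : ℂ} (hz : z ∈ K) : z ∈ Lv K u s ↔
    (∀ n, ∀ t, s < t → ∃ y ∈ nd K n z, y ∉ K ∧ u y < t) ∧
    (∀ n, ∀ t < s, ∃ y ∈ nd K n z, y ∉ K ∧ t < u y) := by
  rw [Lv, mem_compl_iff, mem_union, mem_UpS_of_mem hz, mem_UpS_of_mem hz]
  constructor
  · intro h
    push Not at h
    refine ⟨fun n t ht => ?_, fun n t ht => ?_⟩
    · obtain ⟨y, h1, h2, h3⟩ := h.1 n t ht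
      exact ⟨y, h1, h2, h3⟩
    · obtain ⟨y, h1, h2, h3⟩ := h.2 n (-t) (by linarith)
      exact ⟨y, h1, h2, by linarith⟩
  · rintro ⟨h1, h2⟩ (⟨n, r, h3, h4⟩ | ⟨n, r, h3, h4⟩)
    · obtain ⟨y, h5, h6, h7⟩ := h1 n r h3
      exact absurd (h4 y h5 h6) (not_le.2 h7)
    · obtain ⟨y, h5, h6, h7⟩ := h2 n (-r) (by linarith)
      have := h4 y h5 h6
      linarith

/-- `UpS` is saturated -/
lemma UpS_sat {z y : ℂ} (h : z ∈ UpS K u t) (hz : z ∈ K)
    (hy : y ∈ connectedComponentIn K z) : y ∈ UpS K u t := by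
  have hyK : y ∈ K := connectedComponentIn_subset _ _ hy
  rw [mem_UpS_of_mem hz] at h
  rw [mem_UpS_of_mem hyK]
  obtain ⟨n, r, h1, h2⟩ := h
  refine ⟨n, r, h1, ?_⟩
  rw [nd_eq (connectedComponentIn_mono z (subset_lev n) hy)]
  exact h2

lemma Lv_sat {z y : ℂ} (h : z ∈ Lv K u s) (hz : z ∈ K)
    (hy : y ∈ connectedComponentIn K z) : y ∈ Lv K u s := by
  have hyK : y ∈ K := connectedComponentIn_subset _ _ hy
  have hz' : z ∈ connectedComponentIn K y := by
    rw [← connectedComponentIn_eq hy]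
    exact mem_connectedComponentIn hz
  rintro (h1 | h1)
  · exact h (Or.inl (UpS_sat h1 hyK hz'))
  · exact h (Or.inr (UpS_sat h1 hyK hz'))

/-- one half of the island lemma: a point of the level set is joined to the outside of `w` off a
compact part `Γ` of `UpS K u s` in the interior of `w`. -/
lemma join_off (hK : IsCompact K) (hf : Full K) {w Γ : Set ℂ}
    (hm : IsPreconnected (UpS K (fun z => - u z) (-t) ∪ wᶜ)) (hΓ : IsCompact Γ) (hΓw : Γ ⊆ w)
    (hst : s < t) (hΓt : Γ ⊆ UpS K u t) {p q : ℂ} (hp : p ∈ Lv K u s) (hq : q ∉ w) :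
    JoinedIn Γᶜ p q := by
  have hd : UpS K (fun z => - u z) (-t) ∪ wᶜ ⊆ Γᶜ := by
    rintro z (hz | hz) hzΓ
    · exact disjoint_left.1 (UpS_disjoint hK) (hΓt hzΓ) hz
    · exact hz (hΓw hzΓ)
  by_cases hpK : p ∈ K
  · have hcomp : connectedComponentIn K p ⊆ Γᶜ := by
      intro y hy hyΓ
      exact Lv_sat hp hpK hy (Or.inl (UpS_anti hst.le (hΓt hyΓ)))
    obtain ⟨n, hn⟩ := exists_nd_subset hK hf hpK hΓ.isClosed.isOpen_compl hcomp
    obtain ⟨y, hy, hyK, hyt⟩ := ((mem_Lv_of_mem hpK).1 hp).1 n t hst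
    have h1 : JoinedIn Γᶜ p y := P153.TOP.joinedIn_of_preconnected hΓ.isClosed.isOpen_compl
      (isPreconnected_nd n p) hn (mem_nd hpK n) hy
    have h2 : JoinedIn Γᶜ y q := P153.TOP.joinedIn_of_preconnected hΓ.isClosed.isOpen_compl
      hm hd (Or.inl ((mem_UpS_of_notMem hyK).2 (by linarith))) (Or.inr hq)
    exact h1.trans h2
  · rw [mem_Lv_of_notMem hpK] at hp
    exact P153.TOP.joinedIn_of_preconnected hΓ.isClosed.isOpen_compl
      hm hd (Or.inl ((mem_UpS_of_notMem hpK).2 (by linarith))) (Or.inr hq)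

/-- **no islands** -/
theorem no_island (hK : IsCompact K) (hf : Full K) (hu : ContinuousOn u Kᶜ) {w M : Set ℂ}
    (hw : wᶜ.Nonempty) (hm : SMon K w u) (hM : IsCompact M) (hMn : M.Nonempty)
    (hMw : M ⊆ interior w) (hML : M ⊆ Lv K u s) (hN : IsClosed ((Lv K u s ∩ w) \ M)) : False := by
  obtain ⟨q, hq⟩ := hw
  obtain ⟨p, hp⟩ := hMn
  have hWo : IsOpen (interior w \ ((Lv K u s ∩ w) \ M)) := isOpen_interior.sdiff hN
  obtain ⟨δ, hδ, hδW⟩ := hM.exists_cthickening_subset_open hWo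
    (fun z hz => ⟨hMw hz, fun h => h.2 hz⟩)
  have hδc : IsCompact (cthickening δ M) := hM.cthickening
  set V := thickening δ M with hV
  have hVo : IsOpen V := isOpen_thickening
  have hMV : M ⊆ V := self_subset_thickening hδ M
  have hfV : frontier V ⊆ cthickening δ M :=
    frontier_subset_closure.trans (closure_thickening_subset_cthickening δ M)
  have hfc : IsCompact (frontier V) := hδc.of_isClosed_subset isClosed_frontier hfV
  have hfw : frontier V ⊆ interior w := fun z hz => (hδW (hfV hz)).1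
  have hfL : Disjoint (frontier V) (Lv K u s) := by
    rw [disjoint_left]
    intro z hz hzL
    have h1 := hδW (hfV hz)
    have h2 : z ∈ M := by
      by_contra h3
      exact h1.2 ⟨⟨hzL, interior_subset h1.1⟩, h3⟩
    rw [hVo.frontier_eq] at hz
    exact hz.2 (hMV h2)
  have hcov : frontier V ⊆ UpS K u s ∪ UpS K (fun z => - u z) (-s) := by
    intro z hz
    by_contra h
    exact disjoint_left.1 hfL hz h
  have hU1 : IsOpen (UpS K u s) := isOpen_UpS hK.isClosed hu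
  have hU2 : IsOpen (UpS K (fun z => - u z) (-s)) := isOpen_UpS hK.isClosed hu.neg
  have hdj := UpS_disjoint (u := u) (s := s) hK
  -- the two parts
  have hA : IsCompact (frontier V \ UpS K (fun z => - u z) (-s)) := hfc.diff hU2
  have hB : IsCompact (frontier V \ UpS K u s) := hfc.diff hU1
  have hA' : frontier V \ UpS K (fun z => - u z) (-s) ⊆ UpS K u s := by
    rintro z ⟨hz, hz2⟩
    exact (hcov hz).resolve_right hz2
  have hB' : frontier V \ UpS K u s ⊆ UpS K (fun z => - u z) (-s) := by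
    rintro z ⟨hz, hz2⟩
    exact (hcov hz).resolve_left hz2
  obtain ⟨t, hst, htA⟩ := exists_UpS hK.isClosed hu hA hA'
  obtain ⟨t', hst', htB⟩ := exists_UpS hK.isClosed hu.neg hB hB'
  have hpL : p ∈ Lv K u s := hML hp
  have j1 : JoinedIn (frontier V \ UpS K (fun z => - u z) (-s))ᶜ p q :=
    join_off hK hf (hm (-t)).2 hA (fun z hz => interior_subset (hfw hz.1)) hst htA hpL hq
  have hpL' : p ∈ Lv K (fun z => - u z) (-s) := by rwa [Lv_neg]
  have hnn : (fun z => - (fun z => - u z) z) = u := by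
    funext z
    simp
  have j2 : JoinedIn (frontier V \ UpS K u s)ᶜ p q := by
    refine join_off (u := fun z => - u z) (s := -s) (t := t') hK hf ?_ hB
      (fun z hz => interior_subset (hfw hz.1)) hst' htB hpL' hq
    rw [hnn]
    exact (hm (-t')).1
  have j3 := P153.TOP.janiszewski hA hB (by
    have : (frontier V \ UpS K (fun z => - u z) (-s)) ∩ (frontier V \ UpS K u s) = ∅ := by
      rw [eq_empty_iff_forall_notMem]
      rintro z ⟨⟨h1, h2⟩, -, h3⟩
      rcases hcov h1 with h | h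
      · exact h3 h
      · exact h2 h
    rw [this]
    exact isPreconnected_empty) j1 j2
  have hun : (frontier V \ UpS K (fun z => - u z) (-s)) ∪ (frontier V \ UpS K u s)
      = frontier V := by
    apply Subset.antisymm (union_subset sdiff_subset sdiff_subset)
    intro z hz
    by_cases h : z ∈ UpS K u s
    · exact Or.inl ⟨hz, disjoint_left.1 hdj h⟩
    · exact Or.inr ⟨hz, h⟩
  rw [hun] at j3
  obtain ⟨γ, hγ⟩ := j3
  have hpV : p ∈ V := hMV hp
  have hqV : q ∉ V := fun h => hq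
    (interior_subset (hδW (thickening_subset_cthickening _ _ h)).1)
  obtain ⟨z, hz1, hz2⟩ := frontier_inter_of_connected (isPreconnected_range γ.continuous)
    ⟨p, ⟨0, γ.source⟩, hpV⟩ (fun h => hqV (h ⟨1, γ.target⟩))
  obtain ⟨r, rfl⟩ := hz1
  exact hγ r hz2

/-- a component of a compact set which misses a closed set is inside a relatively clopen part which
misses it -/
lemma exists_clopen_part {L F : Set ℂ} (hL : IsCompact L) (hF : IsClosed F) {x : ℂ} (hx : x ∈ L)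
    (hd : Disjoint (connectedComponentIn L x) F) :
    ∃ M ⊆ L, x ∈ M ∧ IsCompact M ∧ IsClosed (L \ M) ∧ Disjoint M F := by
  have : CompactSpace L := isCompact_iff_compactSpace.1 hL
  set x' : L := ⟨x, hx⟩
  have h1 : connectedComponent x' ⊆ ((Subtype.val : L → ℂ) ⁻¹' F)ᶜ := by
    intro y hy hyF
    refine disjoint_left.1 hd ?_ hyF
    rw [connectedComponentIn_eq_image hx]
    exact ⟨y, hy, rfl⟩
  rw [connectedComponent_eq_iInter_isClopen] at h1
  have h2 : IsOpen ((Subtype.val : L → ℂ) ⁻¹' F)ᶜ :=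
    (hF.preimage continuous_subtype_val).isOpen_compl
  have : Nonempty {Z : Set L // IsClopen Z ∧ x' ∈ Z} := ⟨⟨univ, isClopen_univ, mem_univ _⟩⟩
  have hdir : Directed (· ⊇ ·) (fun Z : {Z : Set L // IsClopen Z ∧ x' ∈ Z} => (Z : Set L)) := by
    intro Z Z'
    exact ⟨⟨Z.1 ∩ Z'.1, Z.2.1.inter Z'.2.1, Z.2.2, Z'.2.2⟩, inter_subset_left,
      inter_subset_right⟩
  obtain ⟨Z, hZ⟩ := exists_subset_nhds_of_isCompact'
    (V := fun Z : {Z : Set L // IsClopen Z ∧ x' ∈ Z} => (Z : Set L))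
    hdir (fun Z => Z.2.1.1.isCompact) (fun Z => Z.2.1.1)
    (U := ((Subtype.val : L → ℂ) ⁻¹' F)ᶜ) (fun y hy => h2.mem_nhds (h1 hy))
  refine ⟨Subtype.val '' Z.1, ?_, ⟨x', Z.2.2, rfl⟩, Z.2.1.1.isCompact.image continuous_subtype_val,
    ?_, ?_⟩
  · rintro _ ⟨y, -, rfl⟩
    exact y.2
  · have h3 : L \ Subtype.val '' Z.1 = Subtype.val '' (Z.1ᶜ) := by
      ext y
      constructor
      · rintro ⟨hy, hy2⟩
        exact ⟨⟨y, hy⟩, fun h => hy2 ⟨⟨y, hy⟩, h, rfl⟩, rfl⟩
      · rintro ⟨y, hy, rfl⟩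
        refine ⟨y.2, ?_⟩
        rintro ⟨y', hy', h⟩
        exact hy (Subtype.ext h ▸ hy')
    rw [h3]
    exact (Z.2.1.compl.1.isCompact.image continuous_subtype_val).isClosed
  · rw [disjoint_left]
    rintro _ ⟨y, hy, rfl⟩ hyF
    exact hZ hy hyF

/-- **every component of a level set meets the frontier** -/
theorem comp_meets (hK : IsCompact K) (hf : Full K) (hu : ContinuousOn u Kᶜ) {w D : Set ℂ}
    (hw : IsCompact w) (hm : SMon K w u) (hD : IsClosed D) (hDw : D ⊆ w) {x : ℂ}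
    (hx : x ∈ Lv K u s ∩ D) :
    (connectedComponentIn (Lv K u s ∩ D) x ∩ frontier D).Nonempty := by
  by_contra hcon
  rw [not_nonempty_iff_eq_empty, ← disjoint_iff_inter_eq_empty] at hcon
  have hLc : IsClosed (Lv K u s) := isClosed_Lv hK.isClosed hu
  have hL : IsCompact (Lv K u s ∩ D) :=
    hw.of_isClosed_subset (hLc.inter hD) (inter_subset_right.trans hDw)
  obtain ⟨M, hML, hxM, hMc, hMN, hMF⟩ := exists_clopen_part hL isClosed_frontier hx hcon
  have hwc : wᶜ.Nonempty := by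
    rw [nonempty_compl]
    rintro rfl
    exact (NormedSpace.unbounded_univ ℝ ℂ) hw.isBounded
  have hMi : M ⊆ interior D := by
    intro z hz
    by_contra h
    exact disjoint_left.1 hMF hz (by rw [hD.frontier_eq]; exact ⟨(hML hz).2, h⟩)
  refine no_island (s := s) hK hf hu hwc hm hMc ⟨x, hxM⟩ (hMi.trans (interior_mono hDw))
    (hML.trans inter_subset_left) ?_
  have h1 : (Lv K u s ∩ w) \ M = ((Lv K u s ∩ D) \ M) ∪ (Lv K u s ∩ (w \ interior D)) := by
    ext z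
    constructor
    · rintro ⟨⟨h1, h2⟩, h3⟩
      by_cases hz : z ∈ interior D
      · exact Or.inl ⟨⟨h1, interior_subset hz⟩, h3⟩
      · exact Or.inr ⟨h1, h2, hz⟩
    · rintro (⟨⟨h1, h2⟩, h3⟩ | ⟨h1, h2, h3⟩)
      · exact ⟨⟨h1, hDw h2⟩, h3⟩
      · exact ⟨⟨h1, h2⟩, fun h => h3 (hMi h)⟩
  rw [h1]
  exact hMN.union (hLc.inter (hw.isClosed.sdiff isOpen_interior))

end Vale.Agent.P116.Cl.H766
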