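import Vale.Agent.P116.Cl.H766.Sec
import Vale.Agent.P116.KB.HDef
import Vale.Agent.P116.H906.Sel

/-!
# P116, full Koebe, block [45]: glue

The level sets of `Lev.lean` and the end intervals of `KB/HDef.lean`.
-/

open Set Filter Topology Metric Bornology MeasureTheory
open scoped ENNReal NNReal

namespace Vale.Agent.P116.Cl.H766

open H906

variable {K D w : Set ℂ} {u g : ℂ → ℝ} {s s' : ℝ}

lemma UpS_eq (t : ℝ) : KF.UpS K u t = UpS K u t := rfl

lemma mem_EI {x : ℂ} : s ∈ KB.EI K u x ↔ x ∈ Lv K u s := by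
  constructor
  · rintro ⟨h1, h2⟩ (h | h)
    · exact h1 h
    · exact h2 h
  · intro h
    exact ⟨fun h1 => h (Or.inl h1), fun h1 => h (Or.inr h1)⟩

lemma SMon_of (h : KF.SMon K w u) : SMon K w u := fun t => ⟨h.1 t, h.2 t⟩

lemma SMon_iff : KF.SMon K w u ↔ SMon K w u :=
  ⟨SMon_of, fun h => ⟨fun t => (h t).1, fun t => (h t).2⟩⟩

/-! ### oscillations -/

/-- bounded near `K` -/
def Bd0 (K : Set ℂ) (u : ℂ → ℝ) : Prop := ∃ B, ∀ z ∈ lev K 0, z ∉ K → |u z| ≤ B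

lemma Bd0.neg (h : Bd0 K u) : Bd0 K (fun z => - u z) := by
  obtain ⟨B, hB⟩ := h
  exact ⟨B, fun z hz hzK => by rw [abs_neg]; exact hB z hz hzK⟩

lemma nd_sub_lev0 (n : ℕ) (x : ℂ) : nd K n x ⊆ lev K 0 :=
  (nd_subset n x).trans (lev_anti (Nat.zero_le n))

lemma Bd0.above (h : Bd0 K u) {A : Set ℂ} (hA : A ⊆ lev K 0) : BddAbove (u '' (A \ K)) := by
  obtain ⟨B, hB⟩ := h
  refine ⟨B, ?_⟩
  rintro _ ⟨z, ⟨hz, hzK⟩, rfl⟩
  exact (le_abs_self _).trans (hB z (hA hz) hzK)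

lemma Bd0.below (h : Bd0 K u) {A : Set ℂ} (hA : A ⊆ lev K 0) : BddBelow (u '' (A \ K)) := by
  obtain ⟨B, hB⟩ := h
  refine ⟨-B, ?_⟩
  rintro _ ⟨z, ⟨hz, hzK⟩, rfl⟩
  exact (abs_le.1 (hB z (hA hz) hzK)).1

lemma oscS_le (hne : D.Nonempty) {D' : Set ℂ} (hD : D = D' \ K) {ε : ℝ}
    (h : ∀ y ∈ D, ∀ y' ∈ D, u y - u y' ≤ ε) : KB.oscS K u D' ≤ ε := by
  unfold KB.oscS
  rw [← hD]
  have h1 : sSup (u '' D) ≤ sInf (u '' D) + ε := by
    refine csSup_le (hne.image _) ?_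
    rintro _ ⟨y, hy, rfl⟩
    have h2 : u y - ε ≤ sInf (u '' D) := by
      refine le_csInf (hne.image _) ?_
      rintro _ ⟨y', hy', rfl⟩
      linarith [h y hy y' hy']
    linarith
  linarith

lemma le_oscS (hu : Bd0 K u) (hD : D ⊆ lev K 0) {y y' : ℂ} (hy : y ∈ D \ K) (hy' : y' ∈ D \ K) :
    u y - u y' ≤ KB.oscS K u D := by
  unfold KB.oscS
  have h1 : u y ≤ sSup (u '' (D \ K)) := le_csSup (hu.above hD) ⟨y, hy, rfl⟩
  have h2 : sInf (u '' (D \ K)) ≤ u y' := csInf_le (hu.below hD) ⟨y', hy', rfl⟩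
  linarith

lemma ndiff_ne (hK : IsCompact K) {x : ℂ} (hx : x ∈ K) (n : ℕ) : (nd K n x \ K).Nonempty := by
  obtain ⟨y, hy, hyK⟩ := nd_diff_nonempty hK hx n
  exact ⟨y, hy, hyK⟩

lemma oscS_nonneg (hK : IsCompact K) (hu : Bd0 K u) {x : ℂ} (hx : x ∈ K) (n : ℕ) :
    0 ≤ KB.oscS K u (nd K n x) := by
  obtain ⟨y, hy⟩ := ndiff_ne hK hx n
  have := le_oscS hu (nd_sub_lev0 n x) hy hy
  linarith

lemma oscS_anti (hK : IsCompact K) (hu : Bd0 K u) {x : ℂ} (hx : x ∈ K) {m n : ℕ} (h : m ≤ n) :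
    KB.oscS K u (nd K n x) ≤ KB.oscS K u (nd K m x) :=
  oscS_le (ndiff_ne hK hx n) rfl fun _ hy _ hy' =>
    le_oscS hu (nd_sub_lev0 m x) ⟨nd_anti h hy.1, hy.2⟩ ⟨nd_anti h hy'.1, hy'.2⟩

lemma iUnion_nd {x : ℂ} (hx : x ∈ K) (n : ℕ) :
    (⋃ y ∈ connectedComponentIn K x, nd K n y) = nd K n x := by
  have h1 : ∀ y ∈ connectedComponentIn K x, nd K n y = nd K n x := fun y hy =>
    nd_eq (connectedComponentIn_mono x (subset_lev n) hy)
  apply Subset.antisymm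
  · exact iUnion₂_subset fun y hy => (h1 y hy).subset
  · exact subset_iUnion₂_of_subset x (mem_connectedComponentIn hx) Subset.rfl

lemma oscC_eq {x : ℂ} (hx : x ∈ K) :
    KB.oscC K u (connectedComponentIn K x) = ⨅ n, KB.oscS K u (nd K n x) := by
  unfold KB.oscC
  simp_rw [iUnion_nd hx]

lemma oscC_le (hK : IsCompact K) (hu : Bd0 K u) {x : ℂ} (hx : x ∈ K) (n : ℕ) :
    KB.oscC K u (connectedComponentIn K x) ≤ KB.oscS K u (nd K n x) := by
  rw [oscC_eq hx]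
  exact ciInf_le ⟨0, by rintro _ ⟨n, rfl⟩; exact oscS_nonneg hK hu hx n⟩ n

lemma oscC_nonneg (hK : IsCompact K) (hu : Bd0 K u) {x : ℂ} (hx : x ∈ K) :
    0 ≤ KB.oscC K u (connectedComponentIn K x) := by
  rw [oscC_eq hx]
  exact le_ciInf fun n => oscS_nonneg hK hu hx n


/-- no oscillation -/
lemma osc0_iff (hK : IsCompact K) (hu : Bd0 K u) {x : ℂ} (hx : x ∈ K) :
    osc0 K u x ↔ KB.oscC K u (connectedComponentIn K x) = 0 := by
  constructor
  · intro h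
    refine le_antisymm (le_of_forall_pos_le_add fun ε hε => ?_) (oscC_nonneg hK hu hx)
    obtain ⟨n, hn⟩ := h ε hε
    rw [zero_add]
    refine (oscC_le hK hu hx n).trans (oscS_le (ndiff_ne hK hx n) rfl fun y hy y' hy' => ?_)
    exact (le_abs_self _).trans (hn y hy.1 hy.2 y' hy'.1 hy'.2)
  · intro h ε hε
    rw [oscC_eq hx] at h
    obtain ⟨n, hn⟩ := exists_lt_of_ciInf_lt (h.trans_lt hε)
    refine ⟨n, fun y hy hyK y' hy' hyK' => ?_⟩
    rw [abs_le]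
    have h1 := le_oscS hu (nd_sub_lev0 n x) (y := y) (y' := y') ⟨hy, hyK⟩ ⟨hy', hyK'⟩
    have h2 := le_oscS hu (nd_sub_lev0 n x) (y := y') (y' := y) ⟨hy', hyK'⟩ ⟨hy, hyK⟩
    constructor <;> linarith

/-! ### end intervals -/

lemma EI_subset (hu : Bd0 K u) {x : ℂ} (hx : x ∈ K) (n : ℕ) :
    KB.EI K u x ⊆ Icc (sInf (u '' (nd K n x \ K))) (sSup (u '' (nd K n x \ K))) := by
  intro s hs
  rw [mem_EI, mem_Lv_of_mem hx] at hs
  constructor
  · refine le_of_forall_gt_imp_ge_of_dense fun t ht => ?_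
    obtain ⟨y, hy, hyK, hyt⟩ := hs.1 n t ht
    exact (csInf_le (hu.below (nd_sub_lev0 n x)) ⟨y, ⟨hy, hyK⟩, rfl⟩).trans hyt.le
  · refine le_of_forall_lt_imp_le_of_dense fun t ht => ?_
    obtain ⟨y, hy, hyK, hyt⟩ := hs.2 n t ht
    exact hyt.le.trans (le_csSup (hu.above (nd_sub_lev0 n x)) ⟨y, ⟨hy, hyK⟩, rfl⟩)

lemma volume_EI_le (hu : Bd0 K u) {x : ℂ} (hx : x ∈ K) :
    volume (KB.EI K u x) ≤ ENNReal.ofReal (KB.oscC K u (connectedComponentIn K x)) := by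
  rw [oscC_eq hx, ENNReal.ofReal_iInf]
  refine le_iInf fun n => ?_
  refine (measure_mono (EI_subset hu hx n)).trans ?_
  rw [Real.volume_Icc]
  rfl

lemma isClosed_EI {x : ℂ} (hx : x ∈ K) : IsClosed (KB.EI K u x) := by
  have h1 : KB.EI K u x = (⋂ n, {s | ∀ t, s < t → ∃ y ∈ nd K n x, y ∉ K ∧ u y < t}) ∩
      (⋂ n, {s | ∀ t < s, ∃ y ∈ nd K n x, y ∉ K ∧ t < u y}) := by
    ext s
    rw [mem_EI, mem_Lv_of_mem hx]
    simp only [mem_inter_iff, mem_iInter, mem_ofPred_eq]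
  rw [h1]
  refine (isClosed_iInter fun n => ?_).inter (isClosed_iInter fun n => ?_)
  · rw [← isOpen_compl_iff, isOpen_iff_mem_nhds]
    intro s hs
    simp only [mem_compl_iff, mem_ofPred_eq, not_forall] at hs
    obtain ⟨t, hst, h⟩ := hs
    filter_upwards [gt_mem_nhds hst] with s' hs' h'
    exact h (h' t hs')
  · rw [← isOpen_compl_iff, isOpen_iff_mem_nhds]
    intro s hs
    simp only [mem_compl_iff, mem_ofPred_eq, not_forall] at hs
    obtain ⟨t, hst, h⟩ := hs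
    filter_upwards [lt_mem_nhds hst] with s' hs' h'
    exact h (h' t hs')

lemma EI_congr {x y : ℂ} (hx : x ∈ K) (hy : y ∈ connectedComponentIn K x) :
    KB.EI K u y = KB.EI K u x := by
  have hyK : y ∈ K := connectedComponentIn_subset _ _ hy
  have hx' : x ∈ connectedComponentIn K y := by
    rw [← connectedComponentIn_eq hy]
    exact mem_connectedComponentIn hx
  ext s
  rw [mem_EI, mem_EI]
  exact ⟨fun h => Lv_sat h hyK hx', fun h => Lv_sat h hx hy⟩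

/-! ### the components of the level set in `D` -/

lemma Lv_eq {z : ℂ} (hz : z ∈ Lv K u s) (hzK : z ∉ K) : u z = s := (mem_Lv_of_notMem hzK).1 hz

/-- a closed set whose frontier misses `K` is saturated -/
lemma sat_of_fr (hfr : Disjoint (frontier D) K) {x : ℂ}
    (h : (connectedComponentIn K x ∩ D).Nonempty) : connectedComponentIn K x ⊆ D :=
  subset_of_frontier_disjoint isPreconnected_connectedComponentIn h
    (hfr.symm.mono_left (connectedComponentIn_subset _ _))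

lemma Cs_isCompact (hK : IsCompact K) (hu : ContinuousOn u Kᶜ) (hw : IsCompact w)
    (hD : IsClosed D) (hDw : D ⊆ w) {C : Set ℂ} (hC : C ∈ Cs K u s D) : IsCompact C := by
  obtain ⟨x, -, rfl⟩ := hC
  exact isCompact_comp (hw.of_isClosed_subset ((isClosed_Lv hK.isClosed hu).inter hD)
    (inter_subset_right.trans hDw)) x

lemma Cs_isPreconnected {C : Set ℂ} (hC : C ∈ Cs K u s D) : IsPreconnected C := by
  obtain ⟨x, -, rfl⟩ := hC
  exact isPreconnected_connectedComponentIn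

lemma Cs_subset {C : Set ℂ} (hC : C ∈ Cs K u s D) : C ⊆ Lv K u s ∩ D := by
  obtain ⟨x, -, rfl⟩ := hC
  exact connectedComponentIn_subset _ _

lemma Cs_disjoint {C C' : Set ℂ} (hC : C ∈ Cs K u s D) (hC' : C' ∈ Cs K u s D) (h : C ≠ C') :
    Disjoint C C' := by
  obtain ⟨x, -, rfl⟩ := hC
  obtain ⟨y, -, rfl⟩ := hC'
  rw [disjoint_left]
  intro z hz hz'
  exact h ((connectedComponentIn_eq hz).trans (connectedComponentIn_eq hz').symm)

lemma Cs_sat (hfr : Disjoint (frontier D) K) {C : Set ℂ} (hC : C ∈ Cs K u s D) {x : ℂ}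
    (h : (connectedComponentIn K x ∩ C).Nonempty) : connectedComponentIn K x ⊆ C := by
  obtain ⟨z, hzx, hzC⟩ := h
  have hzK : z ∈ K := connectedComponentIn_subset _ _ hzx
  have hz := Cs_subset hC hzC
  have h1 : connectedComponentIn K x ⊆ D := sat_of_fr hfr ⟨z, hzx, hz.2⟩
  have h2 : connectedComponentIn K x ⊆ Lv K u s := by
    intro y hy
    refine Lv_sat hz.1 hzK ?_
    rw [← connectedComponentIn_eq hzx]
    exact hy
  obtain ⟨x', hx', rfl⟩ := hC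
  simp only at hzC ⊢
  rw [connectedComponentIn_eq hzC]
  exact isPreconnected_connectedComponentIn.subset_connectedComponentIn hzx
    (subset_inter h2 h1)

/-- **from the core inequality for disjoint continua to the hypothesis of `sec`** -/
theorem hA_of_core (hK : IsCompact K) (hu : ContinuousOn u Kᶜ) (hw : IsCompact w)
    (hD : IsClosed D) (hDw : D ⊆ w) (hfr : Disjoint (frontier D) K) {a : ℝ≥0∞}
    (h : ∀ (J : Finset (Set ℂ)) (C : Set ℂ → Set ℂ), (∀ j ∈ J, IsCompact (C j)) →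
      (∀ j ∈ J, IsPreconnected (C j)) → (∀ j ∈ J, C j ⊆ D) →
      (∀ i ∈ J, ∀ j ∈ J, i ≠ j → Disjoint (C i) (C j)) →
      (∀ j ∈ J, ∀ x ∈ K, (connectedComponentIn K x ∩ C j).Nonempty →
        connectedComponentIn K x ⊆ C j) →
      (∀ j ∈ J, ∀ z ∈ C j, z ∉ K → u z = s) → ∀ p q : Set ℂ → ℂ,
      (∀ j ∈ J, p j ∈ C j ∧ p j ∉ K) → (∀ j ∈ J, q j ∈ C j ∧ q j ∉ K) →
      ∑ j ∈ J, ENNReal.ofReal |g (p j) - g (q j)| ≤ a) :
    ∀ J : Finset (Set ℂ), ↑J ⊆ Cs K u s D → ∀ p q : Set ℂ → ℂ,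
      (∀ C ∈ J, p C ∈ C \ K ∧ q C ∈ C \ K) →
      ∑ C ∈ J, ENNReal.ofReal |g (p C) - g (q C)| ≤ a := by
  intro J hJ p q hpq
  exact h J id (fun C hC => Cs_isCompact hK hu hw hD hDw (hJ hC))
    (fun C hC => Cs_isPreconnected (hJ hC)) (fun C hC => (Cs_subset (hJ hC)).trans inter_subset_right)
    (fun C hC C' hC' hne => Cs_disjoint (hJ hC) (hJ hC') hne)
    (fun C hC x _ hne => Cs_sat hfr (hJ hC) hne)
    (fun C hC z hz hzK => Lv_eq (Cs_subset (hJ hC) hz).1 hzK) p q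
    (fun C hC => (hpq C hC).1) (fun C hC => (hpq C hC).2)

end Vale.Agent.P116.Cl.H766
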