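import Vale.Agent.P116.Cl.H766.Br
import Vale.Agent.P116.KB.TopDef

/-!
# P116, full Koebe, block [45]: the boxes of the massive ends
-/

open Set Filter Topology Metric Bornology MeasureTheory
open scoped ENNReal NNReal

namespace Vale.Agent.P116.Cl.H766

open H906

variable {K w : Set ℂ} {u g ρ ρ' : ℂ → ℝ}

/-- a point of a component -/
noncomputable def pt (c : comps K) : ℂ := c.2.choose

lemma pt_mem (c : comps K) : pt c ∈ K := c.2.choose_spec.1

lemma pt_cc (c : comps K) : connectedComponentIn K (pt c) = (c : Set ℂ) := c.2.choose_spec.2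

/-- the component of a point -/
def cc {x : ℂ} (hx : x ∈ K) : comps K := ⟨connectedComponentIn K x, x, hx, rfl⟩

lemma EI_pt {x : ℂ} (hx : x ∈ K) : KB.EI K u x = KB.EI K u (pt (cc hx)) := by
  refine EI_congr (pt_mem _) ?_
  rw [pt_cc]
  exact mem_connectedComponentIn hx

/-- the box of the end `c` -/
def Bxc (u g : ℂ → ℝ) (c : comps K) : Set (ℝ × ℝ) := KB.EI K u (pt c) ×ˢ KB.EI K g (pt c)

lemma isClosed_Bxc (c : comps K) : IsClosed (Bxc u g c) :=
  IsClosed.prod (isClosed_EI (pt_mem c)) (isClosed_EI (pt_mem c))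

lemma volume_Bxc_le (hu : Bd0 K u) (hg : Bd0 K g) (c : comps K) :
    volume (Bxc u g c) ≤ ENNReal.ofReal (KB.oscC K u c) * ENNReal.ofReal (KB.oscC K g c) := by
  rw [Bxc, Measure.volume_eq_prod, Measure.prod_prod]
  gcongr
  · have := volume_EI_le hu (pt_mem c)
    rwa [pt_cc] at this
  · have := volume_EI_le hg (pt_mem c)
    rwa [pt_cc] at this

lemma oscC_nn (hK : IsCompact K) (hu : Bd0 K u) (c : comps K) : 0 ≤ KB.oscC K u c := by
  have := oscC_nonneg hK hu (pt_mem c)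
  rwa [pt_cc] at this

lemma sub_of_mem (hfr : Disjoint (frontier w) K) {x : ℂ} (hx : x ∈ K) (hxw : x ∈ w) :
    (cc hx : Set ℂ) ⊆ w := sat_of_fr hfr ⟨x, mem_connectedComponentIn hx, hxw⟩

/-- (J4c) boxes of an end which is not massive for both -/
theorem null_degenerate (hu : Bd0 K u) (hg : Bd0 K g)
    (s : Set (comps K)) (hs : s.Countable) :
    volume {q : ℝ × ℝ | ∃ x ∈ K, x ∈ w ∧ (∃ c ∈ s, (c : Set ℂ) = connectedComponentIn K x) ∧
      ¬ (0 < KB.oscC K u (connectedComponentIn K x) ∧ 0 < KB.oscC K g (connectedComponentIn K x)) ∧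
      q.1 ∈ KB.EI K u x ∧ q.2 ∈ KB.EI K g x} = 0 := by
  have hsub : {q : ℝ × ℝ | ∃ x ∈ K, x ∈ w ∧ (∃ c ∈ s, (c : Set ℂ) = connectedComponentIn K x) ∧
      ¬ (0 < KB.oscC K u (connectedComponentIn K x) ∧ 0 < KB.oscC K g (connectedComponentIn K x)) ∧
      q.1 ∈ KB.EI K u x ∧ q.2 ∈ KB.EI K g x} ⊆
      ⋃ c ∈ {c ∈ s | ¬ (0 < KB.oscC K u c ∧ 0 < KB.oscC K g c)}, Bxc u g c := by
    rintro q ⟨x, hx, hxw, ⟨c, hc, hcx⟩, hne, h1, h2⟩
    have hc' : c = cc hx := Subtype.ext hcx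
    subst hc'
    refine mem_iUnion₂.2 ⟨cc hx, ⟨hc, hne⟩, ?_, ?_⟩
    · rwa [EI_pt hx] at h1
    · rwa [EI_pt hx] at h2
  refine measure_mono_null hsub ?_
  rw [measure_biUnion_null_iff (hs.mono (sep_subset _ _))]
  rintro c ⟨-, hc⟩
  refine le_antisymm ((volume_Bxc_le hu hg c).trans ?_) zero_le
  rw [not_and_or, not_lt, not_lt] at hc
  rcases hc with h | h
  · rw [ENNReal.ofReal_of_nonpos h, zero_mul]
  · rw [ENNReal.ofReal_of_nonpos h, mul_zero]

/-- the boxes of the ends in `w` outside `s` which are massive for `g` -/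
def Bs (K w : Set ℂ) (u g : ℂ → ℝ) (s : Set (comps K)) : Set (ℝ × ℝ) :=
  {q | ∃ x, ∃ hx : x ∈ K, x ∈ w ∧ cc hx ∉ s ∧ 0 < KB.oscC K g (connectedComponentIn K x) ∧
    q.1 ∈ KB.EI K u x ∧ q.2 ∈ KB.EI K g x}

/-- countably many ends are massive -/
lemma countable_massive (hg : KB.Hon K w g ρ') :
    {c : comps K | (c : Set ℂ) ⊆ w ∧ 0 < KB.oscC K g c}.Countable := by
  have h1 := (KB.Hon.sum' hg).countable_support
  refine h1.mono ?_
  rintro c ⟨hcw, hc⟩
  rw [Function.mem_support, KB.oc, if_pos hcw]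
  positivity

lemma Bs_eq (hfr : Disjoint (frontier w) K) (s : Set (comps K)) :
    Bs K w u g s = ⋃ c ∈ {c : comps K | ((c : Set ℂ) ⊆ w ∧ 0 < KB.oscC K g c) ∧ c ∉ s},
      Bxc u g c := by
  ext q
  constructor
  · rintro ⟨x, hx, hxw, hs, h0, h1, h2⟩
    refine mem_iUnion₂.2 ⟨cc hx, ⟨⟨sub_of_mem hfr hx hxw, h0⟩, hs⟩, ?_, ?_⟩
    · rwa [EI_pt hx] at h1
    · rwa [EI_pt hx] at h2
  · intro hq
    obtain ⟨c, ⟨⟨hcw, h0⟩, hs⟩, h1, h2⟩ := mem_iUnion₂.1 hq
    have hpc : pt c ∈ (c : Set ℂ) := by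
      have := mem_connectedComponentIn (pt_mem c)
      rwa [pt_cc] at this
    have hcc : cc (pt_mem c) = c := Subtype.ext (pt_cc c)
    refine ⟨pt c, pt_mem c, hcw hpc, by rwa [hcc], by rwa [pt_cc], h1, h2⟩

/-- (J4b) the boxes form a measurable set -/
theorem measurableSet_Bs (hfr : Disjoint (frontier w) K) (hg : KB.Hon K w g ρ')
    (s : Set (comps K)) : MeasurableSet (Bs K w u g s) := by
  rw [Bs_eq hfr]
  refine MeasurableSet.biUnion ((countable_massive hg).mono fun c hc => hc.1) fun c _ => ?_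
  exact (isClosed_Bxc c).measurableSet

/-- (J4b) the area of the boxes -/
theorem volume_Bs_le (hK : IsCompact K) (hfr : Disjoint (frontier w) K) (hu : KB.Hon K w u ρ)
    (hg : KB.Hon K w g ρ') (s : Finset (comps K)) {T : ℝ} (hT : 0 ≤ T)
    (hs : ∑' c : comps K, (open Classical in if c ∈ s then 0 else KB.oc K w u c) ≤ T ^ 2) :
    volume (Bs K w u g s) ≤ ENNReal.ofReal (T * Real.sqrt (KB.Eo K w g)) := by
  classical
  have hub : Bd0 K u := hu.bdd
  have hgb : Bd0 K g := hg.bdd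
  rw [Bs_eq hfr]
  set A : Set (comps K) := {c : comps K | ((c : Set ℂ) ⊆ w ∧ 0 < KB.oscC K g c) ∧ c ∉ (s : Set (comps K))}
    with hA
  have hAc : A.Countable := (countable_massive hg).mono fun c hc => hc.1
  -- the two families
  set a : comps K → ℝ := fun c => if c ∈ s then 0 else if (c : Set ℂ) ⊆ w then KB.oscC K u c else 0
    with ha
  set b : comps K → ℝ := fun c => if (c : Set ℂ) ⊆ w then KB.oscC K g c else 0 with hb
  have ha0 : ∀ c, 0 ≤ a c := by
    intro c
    simp only [ha]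
    split_ifs
    · exact le_rfl
    · exact oscC_nn hK hub c
    · exact le_rfl
  have hb0 : ∀ c, 0 ≤ b c := by
    intro c
    simp only [hb]
    split_ifs
    · exact oscC_nn hK hgb c
    · exact le_rfl
  have ha2 : ∀ c, a c ^ 2 = if c ∈ s then 0 else KB.oc K w u c := by
    intro c
    simp only [ha, KB.oc]
    split_ifs <;> simp
  have hb2 : ∀ c, b c ^ 2 = KB.oc K w g c := by
    intro c
    simp only [hb, KB.oc]
    split_ifs <;> simp
  have hsa : Summable fun c => a c ^ 2 := by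
    refine Summable.of_nonneg_of_le (fun c => sq_nonneg _) (fun c => ?_) (KB.Hon.sum' hu)
    rw [ha2]
    split_ifs
    · rw [KB.oc]
      split_ifs
      · exact sq_nonneg _
      · exact le_rfl
    · exact le_rfl
  have hsb : Summable fun c => b c ^ 2 := by
    simp_rw [hb2]
    exact KB.Hon.sum' hg
  have hcs := Real.summable_and_inner_le_Lp_mul_Lq_tsum_of_nonneg Real.HolderConjugate.two_two ha0 hb0
    (by simpa using hsa) (by simpa using hsb)
  have h1 : volume (⋃ c ∈ A, Bxc u g c) ≤ ∑' c : comps K, ENNReal.ofReal (a c * b c) := by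
    refine (measure_biUnion_le volume hAc _).trans ?_
    calc ∑' c : A, volume (Bxc u g (c : comps K))
        ≤ ∑' c : A, ENNReal.ofReal (a c * b c) := by
          refine ENNReal.tsum_le_tsum fun c => ?_
          have hcw : ((c : comps K) : Set ℂ) ⊆ w := c.2.1.1
          have hcs : (c : comps K) ∉ s := fun h => c.2.2 (Finset.mem_coe.2 h)
          have e1 : a c = KB.oscC K u (c : comps K) := by simp only [ha, if_neg hcs, if_pos hcw]
          have e2 : b c = KB.oscC K g (c : comps K) := by simp only [hb, if_pos hcw]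
          rw [e1, e2, ENNReal.ofReal_mul (oscC_nn hK hub _)]
          exact volume_Bxc_le hub hgb c
      _ ≤ ∑' c : comps K, ENNReal.ofReal (a c * b c) :=
          ENNReal.tsum_comp_le_tsum_of_injective Subtype.val_injective _
  refine h1.trans ?_
  rw [← ENNReal.ofReal_tsum_of_nonneg (fun c => mul_nonneg (ha0 c) (hb0 c)) hcs.1]
  refine ENNReal.ofReal_le_ofReal (hcs.2.trans ?_)
  have e1 : (∑' c, a c ^ (2:ℝ)) ^ ((1:ℝ) / 2) ≤ T := by
    rw [← Real.sqrt_eq_rpow]
    refine Real.sqrt_le_iff.2 ⟨hT, ?_⟩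
    refine le_trans (le_of_eq ?_) hs
    refine tsum_congr fun c => ?_
    rw [Real.rpow_two, ha2]
  have e2 : (∑' c, b c ^ (2:ℝ)) ^ ((1:ℝ) / 2) = Real.sqrt (KB.Eo K w g) := by
    rw [← Real.sqrt_eq_rpow, KB.Eo]
    congr 1
    refine tsum_congr fun c => ?_
    rw [Real.rpow_two, hb2]
  rw [e2]
  exact mul_le_mul_of_nonneg_right e1 (Real.sqrt_nonneg _)

end Vale.Agent.P116.Cl.H766
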