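import Vale.Agent.P116.Cl.H766.Lev

/-!
# P116, full Koebe, block [45]: the slice of the dust at one level

`sec` : if the total oscillation of `g` over the components of `Lv K u s ∩ D` (off `K`) is at most
`a < ∞` and all but countably many of the components meet the frontier of `D`, then the values of
`g` at the ends of `D` in `Lv K u s` where `g` does not oscillate have total length at most
`a + |g (Lv K u s ∩ frontier D)|`.
-/

open Set Filter Topology Metric Bornology MeasureTheory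
open scoped ENNReal NNReal

namespace Vale.Agent.P116.Cl.H766

open H906

/-- `g` does not oscillate at the end `z` -/
def osc0 (K : Set ℂ) (g : ℂ → ℝ) (z : ℂ) : Prop :=
  ∀ ε > 0, ∃ n, ∀ y ∈ nd K n z, y ∉ K → ∀ y' ∈ nd K n z, y' ∉ K → |g y - g y'| ≤ ε

variable {K D : Set ℂ} {u g : ℂ → ℝ} {s s' : ℝ}

lemma osc0.lim {z : ℂ} (h : osc0 K g z) (hz : z ∈ K) (hg : z ∈ Lv K g s') {ε : ℝ} (hε : 0 < ε) :
    ∃ n, ∀ y ∈ nd K n z, y ∉ K → |g y - s'| ≤ ε := by
  obtain ⟨n, hn⟩ := h (ε / 2) (by positivity)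
  obtain ⟨h1, h2⟩ := (mem_Lv_of_mem hz).1 hg
  obtain ⟨y1, hy1, hyK1, hl1⟩ := h1 n (s' + ε / 2) (by linarith)
  obtain ⟨y2, hy2, hyK2, hl2⟩ := h2 n (s' - ε / 2) (by linarith)
  refine ⟨n, fun y hy hyK => ?_⟩
  have h3 := abs_le.1 (hn y hy hyK y1 hy1 hyK1)
  have h4 := abs_le.1 (hn y hy hyK y2 hy2 hyK2)
  rw [abs_le]
  constructor <;> linarith [h3.1, h3.2, h4.1, h4.2]

/-- the value at an end of a connected set with points off `K` -/
lemma mem_closure_val (hK : IsCompact K) (hf : Full K) {C : Set ℂ} (hC : IsPreconnected C)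
    {z : ℂ} (hzC : z ∈ C) (hz : z ∈ K) (hne : (C \ K).Nonempty) (h0 : osc0 K g z)
    (hg : z ∈ Lv K g s') : s' ∈ closure (g '' (C \ K)) := by
  rw [Metric.mem_closure_iff]
  intro ε hε
  obtain ⟨n, hn⟩ := h0.lim hz hg (ε := ε / 2) (by positivity)
  obtain ⟨p, hp, hpK⟩ := hne
  obtain ⟨m, hm⟩ := exists_notMem_lev hK hf hpK
  obtain ⟨y, hyC, hyf⟩ := frontier_inter_of_connected (V := nd K (max n m) z) hC
    ⟨z, hzC, mem_nd hz _⟩ (fun h => hm (lev_anti (le_max_right n m) (nd_subset _ _ (h hp))))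
  have hyK : y ∉ K := disjoint_left.1 (frontier_nd_disjoint _ _) hyf
  have hyn : y ∈ nd K n z :=
    nd_anti (le_max_left n m) ((isCompact_nd hK _ z).isClosed.frontier_subset hyf)
  refine ⟨g y, ⟨y, ⟨hyC, hyK⟩, rfl⟩, ?_⟩
  rw [Real.dist_eq, abs_sub_comm]
  linarith [hn y hyn hyK]

/-- two points of one end have the same value -/
lemma val_unique {z z' : ℂ} {s₁ s₂ : ℝ} (hK : IsCompact K) (hz : z ∈ K)
    (hz' : z' ∈ connectedComponentIn K z) (h0 : osc0 K g z) (h1 : z ∈ Lv K g s₁)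
    (h2 : z' ∈ Lv K g s₂) : s₁ = s₂ := by
  have hzK' : z' ∈ K := connectedComponentIn_subset _ _ hz'
  have h3 : z ∈ Lv K g s₂ := by
    refine Lv_sat h2 hzK' ?_
    rw [← connectedComponentIn_eq hz']
    exact mem_connectedComponentIn hz
  refine eq_of_abs_sub_nonpos (le_of_forall_pos_le_add fun ε hε => ?_)
  obtain ⟨n, hn⟩ := h0.lim hz h1 (ε := ε / 2) (by positivity)
  obtain ⟨m, hm⟩ := h0.lim hz h3 (ε := ε / 2) (by positivity)
  obtain ⟨y, hy, hyK⟩ := nd_diff_nonempty hK hz (max n m)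
  have h4 := hn y (nd_anti (le_max_left n m) hy) hyK
  have h5 := hm y (nd_anti (le_max_right n m) hy) hyK
  rw [abs_le] at h4 h5 ⊢
  constructor <;> linarith [h4.1, h4.2, h5.1, h5.2]

/-- values of `g` at the non oscillating ends of `C` -/
def Vl (K : Set ℂ) (g : ℂ → ℝ) (C : Set ℂ) : Set ℝ :=
  {s' | ∃ z ∈ C, z ∈ K ∧ z ∈ Lv K g s' ∧ osc0 K g z}

lemma Vl_subset (hK : IsCompact K) (hf : Full K) {C : Set ℂ} (hC : IsPreconnected C)
    (hne : (C \ K).Nonempty) : Vl K g C ⊆ closure (g '' (C \ K)) := by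
  rintro s' ⟨z, hzC, hz, h1, h2⟩
  exact mem_closure_val hK hf hC hzC hz hne h2 h1

lemma Vl_subsingleton (hK : IsCompact K) {C : Set ℂ} (hC : IsPreconnected C)
    (hne : ¬ (C \ K).Nonempty) : (Vl K g C).Subsingleton := by
  rintro s₁ ⟨z, hzC, hz, h1, h2⟩ s₂ ⟨z', hzC', hz', h1', h2'⟩
  have hCK : C ⊆ K := by
    intro y hy
    by_contra h
    exact hne ⟨y, hy, h⟩
  exact val_unique hK hz (hC.subset_connectedComponentIn hzC hCK hzC') h2 h1 h1'

lemma ediam_closure_le (A : Set ℝ) : ediam (closure A) = ediam A := by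
  refine le_antisymm (ediam_le fun x hx y hy => ?_) (ediam_mono subset_closure)
  have h1 : (x, y) ∈ closure (A ×ˢ A) := by
    rw [closure_prod_eq]
    exact ⟨hx, hy⟩
  have h2 : IsClosed {w : ℝ × ℝ | edist w.1 w.2 ≤ ediam A} :=
    isClosed_le (by fun_prop) continuous_const
  exact closure_minimal (fun w hw => edist_le_ediam_of_mem hw.1 hw.2) h2 h1

lemma volume_Vl_le (hK : IsCompact K) (hf : Full K) {C : Set ℂ} (hC : IsPreconnected C) :
    volume (Vl K g C) ≤ ediam (g '' (C \ K)) := by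
  by_cases hne : (C \ K).Nonempty
  · calc volume (Vl K g C) ≤ ediam (Vl K g C) := Real.volume_le_diam _
      _ ≤ ediam (closure (g '' (C \ K))) := ediam_mono (Vl_subset hK hf hC hne)
      _ = ediam (g '' (C \ K)) := ediam_closure_le _
  · rw [(Vl_subsingleton hK hC hne).measure_zero]
    exact zero_le

/-- near optimal pairs -/
lemma exists_pair {A : Set ℝ} (hA : A.Nonempty) (hfin : ediam A ≠ ∞) {ε : ℝ≥0∞} (hε : ε ≠ 0) :
    ∃ x ∈ A, ∃ y ∈ A, ediam A ≤ edist x y + ε := by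
  by_contra hcon
  push Not at hcon
  obtain ⟨x, hx⟩ := hA
  have h1 : ε < ediam A := lt_of_le_of_lt (by rw [edist_self, zero_add]) (hcon x hx x hx)
  have h2 : ediam A ≤ ediam A - ε := by
    refine ediam_le fun x hx y hy => ?_
    refine ENNReal.le_sub_of_add_le_right h1.ne_top (hcon x hx y hy).le
  exact absurd h2 (not_le.2 (ENNReal.sub_lt_self hfin (bot_lt_of_lt h1).ne' hε))

/-- from pairs to diameters -/
lemma sum_ediam_le {a : ℝ≥0∞} (ha : a ≠ ∞) {J : Finset (Set ℂ)} (hne : ∀ C ∈ J, (C \ K).Nonempty)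
    (hA : ∀ p q : Set ℂ → ℂ, (∀ C ∈ J, p C ∈ C \ K ∧ q C ∈ C \ K) →
      ∑ C ∈ J, ENNReal.ofReal |g (p C) - g (q C)| ≤ a) :
    ∑ C ∈ J, ediam (g '' (C \ K)) ≤ a := by
  classical
  have hed : ∀ x y : ℂ, edist (g x) (g y) = ENNReal.ofReal |g x - g y| := fun x y => by
    rw [edist_dist, Real.dist_eq]
  choose! p₀ hp₀ using hne
  have hfin : ∀ C ∈ J, ediam (g '' (C \ K)) ≠ ∞ := by
    intro C hC
    refine ne_top_of_le_ne_top ha (ediam_le ?_)
    rintro _ ⟨x, hx, rfl⟩ _ ⟨y, hy, rfl⟩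
    rw [hed]
    have h1 := hA (fun C' => if C' = C then x else p₀ C') (fun C' => if C' = C then y else p₀ C')
      (by
        intro C' hC'
        by_cases h : C' = C
        · subst h
          simpa using ⟨hx, hy⟩
        · simp only [h, if_false]
          exact ⟨hp₀ C' hC', hp₀ C' hC'⟩)
    refine le_trans ?_ h1
    refine le_trans ?_ (Finset.single_le_sum (fun _ _ => zero_le) hC)
    simp
  refine ENNReal.le_of_forall_pos_le_add fun ε hε _ => ?_
  set δ : ℝ≥0∞ := (ε : ℝ≥0∞) / (J.card + 1) with hδ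
  have hδ0 : δ ≠ 0 := by
    rw [hδ, Ne, ENNReal.div_eq_zero_iff]
    rintro (h | h)
    · exact hε.ne' (by exact_mod_cast h)
    · exact absurd h (by finiteness)
  have hpq : ∀ C ∈ J, ∃ xy : ℂ × ℂ, xy.1 ∈ C \ K ∧ xy.2 ∈ C \ K ∧
      ediam (g '' (C \ K)) ≤ ENNReal.ofReal |g xy.1 - g xy.2| + δ := by
    intro C hC
    obtain ⟨_, ⟨x, hx, rfl⟩, _, ⟨y, hy, rfl⟩, h⟩ :=
      exists_pair (A := g '' (C \ K)) ⟨_, ⟨_, hp₀ C hC, rfl⟩⟩ (hfin C hC) hδ0
    rw [hed] at h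
    exact ⟨(x, y), hx, hy, h⟩
  choose! xy h1 h2 h3 using hpq
  calc ∑ C ∈ J, ediam (g '' (C \ K))
      ≤ ∑ C ∈ J, (ENNReal.ofReal |g (xy C).1 - g (xy C).2| + δ) := Finset.sum_le_sum h3
    _ = ∑ C ∈ J, ENNReal.ofReal |g (xy C).1 - g (xy C).2| + J.card * δ := by
        rw [Finset.sum_add_distrib, Finset.sum_const, nsmul_eq_mul]
    _ ≤ a + ε := by
        gcongr
        · exact hA (fun C => (xy C).1) (fun C => (xy C).2) fun C hC => ⟨h1 C hC, h2 C hC⟩
        · rw [hδ]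
          calc (J.card : ℝ≥0∞) * (ε / (J.card + 1)) ≤ (J.card + 1) * (ε / (J.card + 1)) := by
                gcongr
                exact le_self_add
            _ = ε := ENNReal.mul_div_cancel (by positivity) (by finiteness)

/-- the components of the level set in `D` -/
def Cs (K : Set ℂ) (u : ℂ → ℝ) (s : ℝ) (D : Set ℂ) : Set (Set ℂ) :=
  (fun x => connectedComponentIn (Lv K u s ∩ D) x) '' (Lv K u s ∩ D)

/-- **the slice at one level** -/
theorem sec (hK : IsCompact K) (hf : Full K) (hfr : Disjoint (frontier D) K)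
    (hmeet : {C ∈ Cs K u s D | Disjoint C (frontier D)}.Countable) {a : ℝ≥0∞} (ha : a ≠ ∞)
    (hA : ∀ J : Finset (Set ℂ), ↑J ⊆ Cs K u s D → ∀ p q : Set ℂ → ℂ,
      (∀ C ∈ J, p C ∈ C \ K ∧ q C ∈ C \ K) →
      ∑ C ∈ J, ENNReal.ofReal |g (p C) - g (q C)| ≤ a) :
    volume {s' | ∃ z ∈ K ∩ D, z ∈ Lv K u s ∧ z ∈ Lv K g s' ∧ osc0 K g z} ≤
      a + volume (g '' (Lv K u s ∩ frontier D)) := by
  classical
  set 𝒞 := Cs K u s D with h𝒞
  have hpre : ∀ C ∈ 𝒞, IsPreconnected C := by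
    rintro _ ⟨x, -, rfl⟩
    exact isPreconnected_connectedComponentIn
  have hCL : ∀ C ∈ 𝒞, C ⊆ Lv K u s ∩ D := by
    rintro _ ⟨x, -, rfl⟩
    exact connectedComponentIn_subset _ _
  -- sums of diameters
  have hfin : ∀ J : Finset (Set ℂ), ↑J ⊆ 𝒞 → ∑ C ∈ J, ediam (g '' (C \ K)) ≤ a := by
    intro J hJ
    have h1 : ∑ C ∈ J, ediam (g '' (C \ K)) =
        ∑ C ∈ J with (C \ K).Nonempty, ediam (g '' (C \ K)) := by
      rw [Finset.sum_filter]
      refine Finset.sum_congr rfl fun C _ => ?_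
      split_ifs with h
      · rfl
      · rw [not_nonempty_iff_eq_empty.1 h, image_empty, ediam_empty]
    rw [h1]
    refine sum_ediam_le ha (fun C hC => (Finset.mem_filter.1 hC).2) ?_
    exact hA _ fun C hC => hJ (Finset.mem_coe.2 (Finset.mem_filter.1 (Finset.mem_coe.1 hC)).1)
  have hts : ∑' C : 𝒞, ediam (g '' ((C : Set ℂ) \ K)) ≤ a := by
    rw [ENNReal.tsum_eq_iSup_sum]
    refine iSup_le fun J => ?_
    have h1 := hfin (J.map (Function.Embedding.subtype _)) (by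
      intro C hC
      rw [Finset.mem_coe, Finset.mem_map] at hC
      obtain ⟨C', -, rfl⟩ := hC
      exact C'.2)
    rwa [Finset.sum_map] at h1
  have hsup : {C : 𝒞 | ediam (g '' ((C : Set ℂ) \ K)) ≠ 0}.Countable :=
    Summable.countable_support_ennreal (ne_top_of_le_ne_top ha hts)
  -- the countable set of components
  set E : Set (Set ℂ) := {C ∈ 𝒞 | Disjoint C (frontier D)} ∪
    Subtype.val '' {C : 𝒞 | ediam (g '' ((C : Set ℂ) \ K)) ≠ 0} with hE
  have hEc : E.Countable := hmeet.union (hsup.image _)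
  have hE𝒞 : E ⊆ 𝒞 := by
    rintro C (h | ⟨C', -, rfl⟩)
    · exact h.1
    · exact C'.2
  have hcov : {s' | ∃ z ∈ K ∩ D, z ∈ Lv K u s ∧ z ∈ Lv K g s' ∧ osc0 K g z} ⊆
      (⋃ C ∈ E, Vl K g C) ∪ g '' (Lv K u s ∩ frontier D) := by
    rintro s' ⟨z, ⟨hzK, hzD⟩, hzL, hzg, h0⟩
    set C := connectedComponentIn (Lv K u s ∩ D) z with hC
    have hC𝒞 : C ∈ 𝒞 := ⟨z, ⟨hzL, hzD⟩, rfl⟩
    have hzC : z ∈ C := mem_connectedComponentIn ⟨hzL, hzD⟩
    by_cases hCE : C ∈ E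
    · exact Or.inl (mem_iUnion₂.2 ⟨C, hCE, z, hzC, hzK, hzg, h0⟩)
    · right
      have h1 : ¬ Disjoint C (frontier D) := fun h => hCE (Or.inl ⟨hC𝒞, h⟩)
      have h2 : ediam (g '' (C \ K)) = 0 := by
        by_contra h
        exact hCE (Or.inr ⟨⟨C, hC𝒞⟩, h, rfl⟩)
      rw [not_disjoint_iff] at h1
      obtain ⟨y, hyC, hyf⟩ := h1
      have hyK : y ∉ K := disjoint_left.1 hfr hyf
      have h3 : s' ∈ closure (g '' (C \ K)) :=
        mem_closure_val hK hf (hpre C hC𝒞) hzC hzK ⟨y, hyC, hyK⟩ h0 hzg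
      refine ⟨y, ⟨(hCL C hC𝒞 hyC).1, hyf⟩, ?_⟩
      have h4 : edist (g y) s' ≤ ediam (closure (g '' (C \ K))) :=
        edist_le_ediam_of_mem (subset_closure ⟨y, ⟨hyC, hyK⟩, rfl⟩) h3
      rw [ediam_closure_le, h2] at h4
      exact edist_le_zero.1 h4
  calc volume {s' | ∃ z ∈ K ∩ D, z ∈ Lv K u s ∧ z ∈ Lv K g s' ∧ osc0 K g z}
      ≤ volume ((⋃ C ∈ E, Vl K g C) ∪ g '' (Lv K u s ∩ frontier D)) := measure_mono hcov
    _ ≤ volume (⋃ C ∈ E, Vl K g C) + volume (g '' (Lv K u s ∩ frontier D)) :=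
        measure_union_le _ _
    _ ≤ a + volume (g '' (Lv K u s ∩ frontier D)) := by
        gcongr
        calc volume (⋃ C ∈ E, Vl K g C) ≤ ∑' C : E, volume (Vl K g C) :=
              measure_biUnion_le volume hEc _
          _ ≤ ∑' C : E, ediam (g '' ((C : Set ℂ) \ K)) :=
              ENNReal.tsum_le_tsum fun C => volume_Vl_le hK hf (hpre C (hE𝒞 C.2))
          _ ≤ ∑' C : 𝒞, ediam (g '' ((C : Set ℂ) \ K)) :=
              ENNReal.tsum_mono_subtype (fun C : Set ℂ => ediam (g '' (C \ K))) hE𝒞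
          _ ≤ a := hts

/-- the slice at one level, strongly monotone case -/
theorem sec_SMon (hK : IsCompact K) (hf : Full K) (hu : ContinuousOn u Kᶜ) {w : Set ℂ}
    (hw : IsCompact w) (hm : SMon K w u) (hD : IsClosed D) (hDw : D ⊆ w)
    (hfr : Disjoint (frontier D) K) {a : ℝ≥0∞} (ha : a ≠ ∞)
    (hA : ∀ J : Finset (Set ℂ), ↑J ⊆ Cs K u s D → ∀ p q : Set ℂ → ℂ,
      (∀ C ∈ J, p C ∈ C \ K ∧ q C ∈ C \ K) →
      ∑ C ∈ J, ENNReal.ofReal |g (p C) - g (q C)| ≤ a) :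
    volume {s' | ∃ z ∈ K ∩ D, z ∈ Lv K u s ∧ z ∈ Lv K g s' ∧ osc0 K g z} ≤
      a + volume (g '' (Lv K u s ∩ frontier D)) := by
  refine sec hK hf hfr ?_ ha hA
  convert countable_empty
  rw [eq_empty_iff_forall_notMem]
  rintro _ ⟨⟨x, hx, rfl⟩, h⟩
  obtain ⟨y, hy1, hy2⟩ := comp_meets hK hf hu hw hm hD hDw hx
  exact disjoint_left.1 h hy1 hy2

end Vale.Agent.P116.Cl.H766
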